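import Mathlib

/-!
# P158: geodesic rays and bigeodesics of first-passage percolation on `ℤ²`
-/

namespace Vale.Agent.P158

open scoped NNReal

/-- The unoriented nearest-neighbour edges of `ℤ²`: `(x, y, false)` is the edge between `(x, y)`
and `(x + 1, y)`, and `(x, y, true)` is the edge between `(x, y)` and `(x, y + 1)`. -/
abbrev Edge := ℤ × ℤ × Bool

/-- the left or lower endpoint of an edge -/
def near (e : Edge) : ℤ × ℤ := (e.1, e.2.1)

/-- the right or upper endpoint of an edge -/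
def far (e : Edge) : ℤ × ℤ := if e.2.2 then (e.1, e.2.1 + 1) else (e.1 + 1, e.2.1)

/-- `e` is the edge between `u` and `v` -/
def Joins (e : Edge) (u v : ℤ × ℤ) : Prop :=
  (u = near e ∧ v = far e) ∨ (v = near e ∧ u = far e)

/-- `Path t u v c`: there is a finite nearest-neighbour path from `u` to `v` for which the sum of
the weights of the traversed edges is `c`. -/
inductive Path (t : Edge → ℝ≥0) : ℤ × ℤ → ℤ × ℤ → ℝ≥0 → Prop
  | nil (u : ℤ × ℤ) : Path t u u 0
  | cons (e : Edge) (u v w : ℤ × ℤ) (c : ℝ≥0) (h : Joins e u v) (p : Path t v w c) :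
      Path t u w (t e + c)

/-- the passage time -/
noncomputable def T (t : Edge → ℝ≥0) (u v : ℤ × ℤ) : ℝ≥0 := sInf {c | Path t u v c}

/-- `v` is a geodesic ray for the weights `t` -/
def IsRay (t : Edge → ℝ≥0) (v : ℕ → ℤ × ℤ) : Prop :=
  Function.Injective v ∧ ∃ e : ℕ → Edge, (∀ i, Joins (e i) (v i) (v (i + 1))) ∧
    ∀ i j, i < j → ∑ k ∈ Finset.Ico i j, t (e k) = T t (v i) (v j)

/-- `v` is a bigeodesic for the weights `t` -/
def IsBigeodesic (t : Edge → ℝ≥0) (v : ℤ → ℤ × ℤ) : Prop :=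
  Function.Injective v ∧ ∃ e : ℤ → Edge, (∀ i, Joins (e i) (v i) (v (i + 1))) ∧
    ∀ i j, i < j → ∑ k ∈ Finset.Ico i j, t (e k) = T t (v i) (v j)

end Vale.Agent.P158
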