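import Vale.Agent.H16.FPP.Defs

namespace Vale.Agent.P158

open scoped NNReal

variable {t : Edge → ℝ≥0}

lemma Path.trans' {u v w : ℤ × ℤ} {c d : ℝ≥0} (p : Path t u v c) (q : Path t v w d) :
    Path t u w (c + d) := by
  induction p with
  | nil u => rwa [zero_add]
  | cons e u v z c h p ih => rw [add_assoc]; exact Path.cons e u v w _ h (ih q)

lemma Path.edge {e : Edge} {u v : ℤ × ℤ} (h : Joins e u v) : Path t u v (t e) := by
  have := Path.cons e u v v 0 h (Path.nil (t := t) v)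
  rwa [add_zero] at this

lemma Joins.symm' {e : Edge} {u v : ℤ × ℤ} (h : Joins e u v) : Joins e v u := Or.symm h

/-- moving by `n` steps in direction `d` -/
lemma line (b : ℝ≥0) (g : ℕ → ℤ × ℤ) (e : ℕ → Edge) (n : ℕ)
    (h : ∀ i < n, Joins (e i) (g i) (g (i + 1)) ∧ t (e i) ≤ b) :
    ∃ c ≤ n * b, Path t (g 0) (g n) c ∧ Path t (g n) (g 0) c := by
  induction n with
  | zero => exact ⟨0, by simp, Path.nil _, Path.nil _⟩
  | succ n ih =>
    obtain ⟨c, hc, p, q⟩ := ih fun i hi => h i (by omega)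
    obtain ⟨h1, h2⟩ := h n (by omega)
    refine ⟨c + t (e n), ?_, p.trans' (Path.edge h1), ?_⟩
    · push_cast
      rw [add_mul, one_mul]
      exact add_le_add hc h2
    · rw [add_comm c (t (e n))]
      exact (Path.edge h1.symm').trans' q

/-- the edges of the block at column `m` -/
noncomputable def block (K L : ℕ) (m : ℤ) : Finset Edge :=
  ((Finset.range L ×ˢ Finset.Icc (-(K : ℤ)) (K + 1)).image fun p => (m + p.1, p.2, false)) ∪
    (({m, m + L} ×ˢ Finset.Icc (-(K : ℤ)) K).image fun p => (p.1, p.2, true))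

/-- the allowed values in a block -/
def AA (K : ℕ) (b a : ℝ≥0) (e : Edge) : Set ℝ≥0 :=
  if e.2.2 = true ∨ (K : ℤ) < e.2.1 then Set.Iic b else Set.Ici a

lemma bypass (K L : ℕ) (m : ℤ) (b a : ℝ≥0) (h : ∀ e ∈ block K L m, t e ∈ AA K b a e) (y₁ y₂ : ℤ)
    (h₁ : |y₁| ≤ K) (h₂ : |y₂| ≤ K) :
    ∃ c ≤ (L + 2 * (2 * K + 1)) * b, Path t (m, y₁) (m + L, y₂) c ∧
      Path t (m + L, y₂) (m, y₁) c := by
  rw [abs_le] at h₁ h₂
  have hv : ∀ x : ℤ, (x = m ∨ x = m + L) → ∀ y : ℤ, -(K : ℤ) ≤ y → y ≤ K →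
      ∃ c ≤ ((2 * K + 1 : ℕ) : ℝ≥0) * b, Path t (x, y) (x, K + 1) c ∧ Path t (x, K + 1) (x, y) c := by
    intro x hx y hy1 hy2
    obtain ⟨n, hn⟩ : ∃ n : ℕ, (n : ℤ) = K + 1 - y := ⟨(K + 1 - y).toNat, by omega⟩
    obtain ⟨c, hc, p, q⟩ := line (t := t) b (fun i => (x, y + i)) (fun i => (x, y + i, true)) n
      (fun i hi => by
        constructor
        · left
          simp only [near, far, if_true, Prod.mk.injEq, true_and]
          push_cast
          ring
        · have h1 : ((x, y + (i : ℤ), true) : Edge) ∈ block K L m := by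
            unfold block
            rw [Finset.mem_union]
            right
            rw [Finset.mem_image]
            refine ⟨(x, y + i), ?_, rfl⟩
            rw [Finset.mem_product, Finset.mem_Icc]
            simp only [Finset.mem_insert, Finset.mem_singleton]
            exact ⟨hx, by omega, by omega⟩
          have h2 := h _ h1
          simpa [AA] using h2)
    refine ⟨c, hc.trans ?_, ?_, ?_⟩
    · gcongr
      omega
    · simpa [hn] using p
    · simpa [hn] using q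
  obtain ⟨c₁, hc₁, p₁, q₁⟩ := hv m (Or.inl rfl) y₁ h₁.1 h₁.2
  obtain ⟨c₂, hc₂, p₂, q₂⟩ := hv (m + L) (Or.inr rfl) y₂ h₂.1 h₂.2
  obtain ⟨c₃, hc₃, p₃, q₃⟩ := line (t := t) b (fun i => (m + i, (K : ℤ) + 1))
    (fun i => (m + i, (K : ℤ) + 1, false)) L (fun i hi => by
      constructor
      · left
        simp only [near, far]
        push_cast
        simp
        ring
      · have h1 : ((m + (i : ℤ), (K : ℤ) + 1, false) : Edge) ∈ block K L m := by
          unfold block
          rw [Finset.mem_union]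
          left
          rw [Finset.mem_image]
          refine ⟨(i, (K : ℤ) + 1), ?_, rfl⟩
          rw [Finset.mem_product, Finset.mem_Icc, Finset.mem_range]
          exact ⟨hi, by simp only; omega, le_rfl⟩
        have h2 := h _ h1
        simpa [AA] using h2)
  simp only [Nat.cast_zero, add_zero] at p₃ q₃
  refine ⟨c₁ + c₃ + c₂, ?_, (p₁.trans' p₃).trans' q₂, ?_⟩
  · calc c₁ + c₃ + c₂ ≤ ((2 * K + 1 : ℕ) : ℝ≥0) * b + L * b + ((2 * K + 1 : ℕ) : ℝ≥0) * b := by
          gcongr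
      _ = (L + 2 * (2 * K + 1)) * b := by
          push_cast
          ring
  · have := (p₂.trans' q₃).trans' q₁
    rwa [add_right_comm, add_comm c₂ c₁, add_right_comm] at this

lemma crossing (x : ℕ → ℤ) (hstep : ∀ i, x (i + 1) ≤ x i + 1) (m L : ℤ) (hL : 0 < L)
    (h0 : x 0 ≤ m) (h : ∃ j, m + L ≤ x j) :
    ∃ i j, i < j ∧ x i = m ∧ x j = m + L ∧ ∀ l, i ≤ l → l ≤ j → m ≤ x l ∧ x l ≤ m + L := by
  classical
  set j := Nat.find h with hj
  have hj1 : m + L ≤ x j := Nat.find_spec h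
  have hj2 : ∀ l < j, x l < m + L := fun l hl => by
    have := Nat.find_min h hl
    omega
  have hj0 : j ≠ 0 := by
    intro h1
    rw [h1] at hj1
    omega
  have hj3 : x j = m + L := by
    have h1 := hstep (j - 1)
    rw [Nat.sub_add_cancel (by omega)] at h1
    have h2 := hj2 (j - 1) (by omega)
    omega
  set i := Nat.findGreatest (fun l => x l ≤ m) j with hi
  have hi1 : x i ≤ m := Nat.findGreatest_spec (P := fun l => x l ≤ m) (Nat.zero_le j) h0
  have hi2 : i ≤ j := Nat.findGreatest_le j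
  have hi3 : ∀ l, i < l → l ≤ j → m < x l := fun l h1 h2 => by
    have := Nat.findGreatest_is_greatest (P := fun l => x l ≤ m) h1 h2
    omega
  have hij : i < j := by
    rcases hi2.lt_or_eq with h1 | h1
    · exact h1
    · rw [h1] at hi1
      omega
  have hi4 : x i = m := by
    have h1 := hi3 (i + 1) (by omega) (by omega)
    have h2 := hstep i
    omega
  refine ⟨i, j, hij, hi4, hj3, fun l h1 h2 => ⟨?_, ?_⟩⟩
  · rcases h1.lt_or_eq with h3 | h3
    · exact (hi3 l h3 h2).le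
    · rw [← h3, hi4]
  · rcases h2.lt_or_eq with h3 | h3
    · exact (hj2 l h3).le
    · rw [h3, hj3]

lemma no_cross (K L : ℕ) (m : ℤ) (b a : ℝ≥0) (hba : (L + 2 * (2 * K + 1)) * b < L * a)
    (hE : ∀ e ∈ block K L m, t e ∈ AA K b a e) (v : ℕ → ℤ × ℤ) (hv : IsRay t v)
    (hK : ∀ i, |(v i).2| ≤ K) (i j : ℕ) (hij : i < j)
    (hx : ((v i).1 = m ∧ (v j).1 = m + L) ∨ ((v i).1 = m + L ∧ (v j).1 = m))
    (hbt : ∀ l, i ≤ l → l ≤ j → m ≤ (v l).1 ∧ (v l).1 ≤ m + L) : False := by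
  obtain ⟨_, e, he, hT⟩ := hv
  have hlow : ∀ l ∈ Finset.Ico i j, (a : ℝ) * |(((v (l + 1)).1 : ℤ) : ℝ) - ((v l).1 : ℝ)| ≤ t (e l) := by
    intro l hl
    rw [Finset.mem_Ico] at hl
    have hb1 := hbt l hl.1 hl.2.le
    have hb2 := hbt (l + 1) (by omega) (by omega)
    have hk1 := abs_le.mp (hK l)
    have hj := he l
    generalize e l = el at hj ⊢
    obtain ⟨p, q, dir⟩ := el
    cases dir with
    | true =>
      have h0 : (v (l + 1)).1 = (v l).1 := by
        rcases hj with ⟨h1, h2⟩ | ⟨h1, h2⟩ <;> simp [h1, h2, near, far]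
      rw [h0, sub_self, abs_zero, mul_zero]
      exact NNReal.coe_nonneg _
    | false =>
      have h0 : m ≤ p ∧ p + 1 ≤ m + L ∧ -(K : ℤ) ≤ q ∧ q ≤ K ∧
          |(((v (l + 1)).1 : ℤ) : ℝ) - ((v l).1 : ℝ)| = 1 := by
        rcases hj with ⟨h1, h2⟩ | ⟨h1, h2⟩
        · rw [h1] at hb1 hk1
          rw [h2] at hb2
          simp only [near, far, Bool.false_eq_true, if_false] at hb1 hb2 hk1
          refine ⟨hb1.1, hb2.2, hk1.1, hk1.2, ?_⟩
          rw [h1, h2]
          simp [near, far]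
        · rw [h2] at hb1 hk1
          rw [h1] at hb2
          simp only [near, far, Bool.false_eq_true, if_false] at hb1 hb2 hk1
          refine ⟨hb2.1, hb1.2, hk1.1, hk1.2, ?_⟩
          rw [h1, h2]
          simp [near, far]
      obtain ⟨g1, g2, g3, g4, g5⟩ := h0
      rw [g5, mul_one]
      have h1 : ((p, q, false) : Edge) ∈ block K L m := by
        unfold block
        rw [Finset.mem_union]
        left
        rw [Finset.mem_image]
        refine ⟨((p - m).toNat, q), ?_, ?_⟩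
        · rw [Finset.mem_product, Finset.mem_Icc, Finset.mem_range]
          exact ⟨by simp only; omega, by simp only; omega, by simp only; omega⟩
        · simp only [Prod.mk.injEq, and_true]
          omega
      have h2 := hE _ h1
      have h3 : ¬ ((K : ℤ) < q) := by omega
      simp only [AA, Bool.false_eq_true, false_or, h3, if_false, Set.mem_Ici] at h2
      exact_mod_cast h2
  have hsum : (L : ℝ) ≤ ∑ l ∈ Finset.Ico i j, |(((v (l + 1)).1 : ℤ) : ℝ) - ((v l).1 : ℝ)| := by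
    have h1 := Finset.sum_Ico_sub (fun l => (((v l).1 : ℤ) : ℝ)) hij.le
    have h2 := Finset.abs_sum_le_sum_abs (fun l => (((v (l + 1)).1 : ℤ) : ℝ) - ((v l).1 : ℝ))
      (Finset.Ico i j)
    rw [h1] at h2
    refine le_trans ?_ h2
    rcases hx with ⟨h3, h4⟩ | ⟨h3, h4⟩
    · rw [h3, h4]
      push_cast
      rw [show (m : ℝ) + L - m = L by ring]
      exact le_abs_self _
    · rw [h3, h4]
      push_cast
      rw [show (m : ℝ) - (m + L) = -L by ring, abs_neg]
      exact le_abs_self _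
  obtain ⟨c, hc, hp⟩ : ∃ c ≤ (L + 2 * (2 * K + 1)) * b, Path t (v i) (v j) c := by
    rcases hx with ⟨h3, h4⟩ | ⟨h3, h4⟩
    · obtain ⟨c, hc, hp, _⟩ := bypass K L m b a hE (v i).2 (v j).2 (hK i) (hK j)
      refine ⟨c, hc, ?_⟩
      rwa [← h4, ← h3] at hp
    · obtain ⟨c, hc, _, hp⟩ := bypass K L m b a hE (v j).2 (v i).2 (hK j) (hK i)
      refine ⟨c, hc, ?_⟩
      rwa [← h3, ← h4] at hp
  have hTc : T t (v i) (v j) ≤ c := csInf_le' hp
  have h1 : (L : ℝ≥0) * a ≤ T t (v i) (v j) := by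
    rw [← hT i j hij]
    have h2 : (L : ℝ) * a ≤ ∑ l ∈ Finset.Ico i j, (t (e l) : ℝ) := by
      calc (L : ℝ) * a ≤
          (∑ l ∈ Finset.Ico i j, |(((v (l + 1)).1 : ℤ) : ℝ) - ((v l).1 : ℝ)|) * a := by gcongr
        _ = ∑ l ∈ Finset.Ico i j, (a : ℝ) * |(((v (l + 1)).1 : ℤ) : ℝ) - ((v l).1 : ℝ)| := by
            rw [mul_comm, Finset.mul_sum]
        _ ≤ _ := Finset.sum_le_sum hlow
    exact_mod_cast h2
  exact absurd (h1.trans (hTc.trans hc)) (not_le.mpr hba)

lemma no_ray (K L : ℕ) (b a : ℝ≥0) (hL : 0 < L) (hba : (L + 2 * (2 * K + 1)) * b < L * a)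
    (hr : ∀ M : ℤ, ∃ m ≥ M, ∀ e ∈ block K L m, t e ∈ AA K b a e)
    (hl : ∀ M : ℤ, ∃ m, m + L ≤ M ∧ ∀ e ∈ block K L m, t e ∈ AA K b a e)
    (v : ℕ → ℤ × ℤ) (hv : IsRay t v) (hK : ∀ i, |(v i).2| ≤ K) : False := by
  have hstep : ∀ i, |(v (i + 1)).1 - (v i).1| ≤ 1 := by
    intro i
    obtain ⟨_, e, he, _⟩ := hv
    have hj := he i
    generalize e i = el at hj
    obtain ⟨p, q, dir⟩ := el
    cases dir <;> rcases hj with ⟨h1, h2⟩ | ⟨h1, h2⟩ <;> rw [h1, h2] <;> simp [near, far]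
  have hunb : ∀ M : ℤ, ∃ i, M < |(v i).1| := by
    intro M
    by_contra hcon
    push Not at hcon
    have h1 : Set.range v ⊆ (Set.Icc (-M) M) ×ˢ (Set.Icc (-(K : ℤ)) K) := by
      rintro _ ⟨i, rfl⟩
      exact ⟨abs_le.mp (hcon i), abs_le.mp (hK i)⟩
    exact Set.infinite_range_of_injective hv.1
      (((Set.finite_Icc _ _).prod (Set.finite_Icc _ _)).subset h1)
  by_cases hup : ∀ M : ℤ, ∃ i, M ≤ (v i).1
  · obtain ⟨m, hm, hg⟩ := hr (v 0).1
    obtain ⟨i, j, hij, h1, h2, h3⟩ := crossing (fun i => (v i).1)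
      (fun i => by have := abs_le.mp (hstep i); omega) m L (by exact_mod_cast hL) hm
      (hup _)
    exact no_cross K L m b a hba hg v hv hK i j hij (Or.inl ⟨h1, h2⟩) h3
  · push Not at hup
    obtain ⟨M₀, hM₀⟩ := hup
    obtain ⟨m, hm, hg⟩ := hl (v 0).1
    obtain ⟨j₀, hj₀⟩ := hunb (max |M₀| |m|)
    have hj₁ : (v j₀).1 ≤ m := by
      have h1 := hM₀ j₀
      have h2 := le_abs_self M₀
      have h3 := neg_abs_le m
      have h4 := le_max_left |M₀| |m|
      have h5 := le_max_right |M₀| |m|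
      rcases abs_cases (v j₀).1 with ⟨h6, _⟩ | ⟨h6, _⟩ <;> omega
    obtain ⟨i, j, hij, h1, h2, h3⟩ := crossing (fun i => -(v i).1)
      (fun i => by have := abs_le.mp (hstep i); omega) (-(m + L)) L
      (by exact_mod_cast hL) (by omega) ⟨j₀, by omega⟩
    refine no_cross K L m b a hba hg v hv hK i j hij (Or.inr ⟨by omega, by omega⟩) ?_
    intro l hl1 hl2
    have := h3 l hl1 hl2
    constructor <;> omega

end Vale.Agent.P158
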