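import Vale.Agent.H16.FPP.Prob
import Vale.Agent.H16.FPP.Det

namespace Vale.Agent.P158

open MeasureTheory ProbabilityTheory Filter
open scoped NNReal ENNReal Topology

variable {Ω : Type*} [MeasurableSpace Ω] {P : Measure Ω} [IsProbabilityMeasure P]
  {G : Measure ℝ≥0} [IsProbabilityMeasure G] {t : Edge → Ω → ℝ≥0}

lemma block_x {K L : ℕ} {m : ℤ} {e : Edge} (he : e ∈ block K L m) : m ≤ e.1 ∧ e.1 ≤ m + L := by
  unfold block at he
  rw [Finset.mem_union, Finset.mem_image, Finset.mem_image] at he
  rcases he with ⟨⟨x, y⟩, h1, rfl⟩ | ⟨⟨x, y⟩, h1, rfl⟩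
  · rw [Finset.mem_product, Finset.mem_range] at h1
    have := h1.1
    simp only at this ⊢
    omega
  · rw [Finset.mem_product, Finset.mem_insert, Finset.mem_singleton] at h1
    have := h1.1
    simp only at this ⊢
    omega

lemma block_card (K L : ℕ) (m : ℤ) : (block K L m).card ≤ L * (2 * K + 2) + 2 * (2 * K + 1) := by
  unfold block
  refine (Finset.card_union_le _ _).trans (add_le_add ?_ ?_)
  · refine Finset.card_image_le.trans ?_
    rw [Finset.card_product, Finset.card_range, Int.card_Icc]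
    gcongr
    omega
  · refine Finset.card_image_le.trans ?_
    rw [Finset.card_product, Int.card_Icc]
    gcongr
    · exact Finset.card_le_two
    · omega

lemma strips (ht : ∀ e, Measurable (t e)) (hlaw : ∀ e, P.map (t e) = G) (hind : iIndepFun t P)
    (hG : ∀ x, G {x} = 0) :
    ∀ᵐ ω ∂P, ∀ (K : ℕ) (v : ℕ → ℤ × ℤ), IsRay (fun e => t e ω) v → ¬ ∀ i, |(v i).2| ≤ K := by
  obtain ⟨b, a, hba, hb, ha⟩ := exists_two G hG
  rw [ae_all_iff]
  intro K
  -- the length of the blocks
  obtain ⟨L, hL⟩ : ∃ L : ℕ, (2 * (2 * K + 1)) * (b : ℝ) < L * ((a : ℝ) - b) := by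
    obtain ⟨L, hL⟩ := exists_nat_gt ((2 * (2 * K + 1)) * (b : ℝ) / ((a : ℝ) - b))
    have h1 : (0 : ℝ) < (a : ℝ) - b := sub_pos.mpr (by exact_mod_cast hba)
    rw [div_lt_iff₀ h1] at hL
    exact ⟨L, hL⟩
  have hL0 : 0 < L := by
    rcases Nat.eq_zero_or_pos L with h | h
    · exfalso
      rw [h, Nat.cast_zero, zero_mul] at hL
      have : (0 : ℝ) ≤ (2 * (2 * K + 1)) * (b : ℝ) := by positivity
      linarith
    · exact h
  have hba2 : ((L : ℝ≥0) + 2 * (2 * K + 1)) * b < L * a := by
    rw [← NNReal.coe_lt_coe]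
    push_cast
    linarith
  set A := AA K b a with hA
  have hAm : ∀ e, MeasurableSet (A e) := by
    intro e
    rw [hA]
    unfold AA
    split_ifs
    · exact measurableSet_Iic
    · exact measurableSet_Ici
  have hAc : ∀ e, min (G (Set.Iic b)) (G (Set.Ici a)) ≤ G (A e) := by
    intro e
    rw [hA]
    unfold AA
    split_ifs
    · exact min_le_left _ _
    · exact min_le_right _ _
  have hc : min (G (Set.Iic b)) (G (Set.Ici a)) ≠ 0 := by
    rcases min_choice (G (Set.Iic b)) (G (Set.Ici a)) with h | h <;> rw [h] <;> assumption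
  have hdisj : ∀ (m m' : ℤ), m + L < m' → Disjoint (block K L m) (block K L m') := by
    intro m m' h
    rw [Finset.disjoint_left]
    intro e he he'
    have h1 := block_x he
    have h2 := block_x he'
    omega
  have hr := frequently_Ev ht hlaw hind A hAm (fun j : ℕ => block K L ((L + 1) * j : ℤ))
    (by
      intro i j hij
      rcases lt_or_gt_of_ne hij with h | h
      · refine hdisj _ _ ?_
        have : (i : ℤ) + 1 ≤ j := by omega
        nlinarith
      · refine (hdisj _ _ ?_).symm
        have : (j : ℤ) + 1 ≤ i := by omega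
        nlinarith) _ (fun j => block_card K L _) _ hc hAc
  have hl := frequently_Ev ht hlaw hind A hAm (fun j : ℕ => block K L (-((L + 1) * j) : ℤ))
    (by
      intro i j hij
      rcases lt_or_gt_of_ne hij with h | h
      · refine (hdisj _ _ ?_).symm
        have : (i : ℤ) + 1 ≤ j := by omega
        nlinarith
      · refine hdisj _ _ ?_
        have : (j : ℤ) + 1 ≤ i := by omega
        nlinarith) _ (fun j => block_card K L _) _ hc hAc
  filter_upwards [hr, hl] with ω hω₁ hω₂ v hv hK
  have hmem : ∀ m : ℤ, ω ∈ Ev t A (block K L m) → ∀ e ∈ block K L m, t e ω ∈ AA K b a e := by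
    intro m h e he
    simp only [Ev, Set.mem_iInter, Set.mem_preimage] at h
    exact h e he
  refine no_ray (t := fun e => t e ω) K L b a hL0 hba2 ?_ ?_ v hv hK
  · intro M
    obtain ⟨j, hj1, hj2⟩ := (frequently_atTop.mp hω₁) M.toNat
    refine ⟨_, ?_, hmem _ hj2⟩
    have h1 : M ≤ j := by omega
    have h2 : (0 : ℤ) ≤ j := by omega
    have h3 : (0 : ℤ) ≤ L := by omega
    nlinarith
  · intro M
    obtain ⟨j, hj1, hj2⟩ := (frequently_atTop.mp hω₂) (-M + L).toNat
    refine ⟨_, ?_, hmem _ hj2⟩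
    have h1 : -M + L ≤ j := by omega
    have h2 : (0 : ℤ) ≤ j := by omega
    have h3 : (0 : ℤ) ≤ L := by omega
    nlinarith

end Vale.Agent.P158
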