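import Vale.Agent.H16.FPP.Defs

namespace Vale.Agent.P158

open MeasureTheory ProbabilityTheory Filter
open scoped NNReal ENNReal Topology

variable {Ω : Type*} [MeasurableSpace Ω] {P : Measure Ω} [IsProbabilityMeasure P]
  {G : Measure ℝ≥0} [IsProbabilityMeasure G] {t : Edge → Ω → ℝ≥0}

/-- all edges of `B` have their weight in `A` -/
def Ev (t : Edge → Ω → ℝ≥0) (A : Edge → Set ℝ≥0) (B : Finset Edge) : Set Ω :=
  ⋂ e ∈ B, t e ⁻¹' A e

lemma meas_Ev (ht : ∀ e, Measurable (t e)) (A : Edge → Set ℝ≥0) (hA : ∀ e, MeasurableSet (A e))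
    (B : Finset Edge) : MeasurableSet (Ev t A B) :=
  Finset.measurableSet_biInter _ fun e _ => ht e (hA e)

lemma prob_Ev (ht : ∀ e, Measurable (t e)) (hlaw : ∀ e, P.map (t e) = G) (hind : iIndepFun t P)
    (A : Edge → Set ℝ≥0) (hA : ∀ e, MeasurableSet (A e)) (B : Finset Edge) :
    P (Ev t A B) = ∏ e ∈ B, G (A e) := by
  unfold Ev
  rw [hind.measure_inter_preimage_eq_mul B (fun e _ => hA e)]
  refine Finset.prod_congr rfl fun e _ => ?_
  rw [← hlaw e, Measure.map_apply (ht e) (hA e)]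

lemma frequently_Ev (ht : ∀ e, Measurable (t e)) (hlaw : ∀ e, P.map (t e) = G)
    (hind : iIndepFun t P) (A : Edge → Set ℝ≥0) (hA : ∀ e, MeasurableSet (A e))
    (B : ℕ → Finset Edge) (hB : Pairwise fun i j => Disjoint (B i) (B j)) (N : ℕ)
    (hN : ∀ j, (B j).card ≤ N) (c : ℝ≥0∞) (hc : c ≠ 0) (hcA : ∀ e, c ≤ G (A e)) :
    ∀ᵐ ω ∂P, ∃ᶠ j in atTop, ω ∈ Ev t A (B j) := by
  have hm : ∀ j, MeasurableSet (Ev t A (B j)) := fun j => meas_Ev ht A hA _
  have hI : iIndepSet (fun j => Ev t A (B j)) P := by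
    rw [iIndepSet_iff_meas_biInter hm]
    intro s
    have h1 : (⋂ j ∈ s, Ev t A (B j)) = Ev t A (s.biUnion B) := by
      ext ω
      simp only [Ev, Set.mem_iInter, Finset.mem_biUnion]
      constructor
      · rintro h e ⟨j, hj, he⟩
        exact h j hj e he
      · intro h j hj e he
        exact h e ⟨j, hj, he⟩
    rw [h1, prob_Ev ht hlaw hind A hA, Finset.prod_biUnion (fun i _ j _ hij => hB hij)]
    exact Finset.prod_congr rfl fun j _ => (prob_Ev ht hlaw hind A hA _).symm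
  have hc1 : c ≤ 1 := (hcA (0, 0, true)).trans prob_le_one
  have hlow : ∀ j, c ^ N ≤ P (Ev t A (B j)) := by
    intro j
    rw [prob_Ev ht hlaw hind A hA]
    calc c ^ N ≤ c ^ (B j).card := pow_le_pow_of_le_one (zero_le) hc1 (hN j)
      _ = ∏ e ∈ B j, c := by rw [Finset.prod_const]
      _ ≤ ∏ e ∈ B j, G (A e) := Finset.prod_le_prod' fun e _ => hcA e
  have hsum : ∑' j, P (Ev t A (B j)) = ∞ := by
    refine top_unique ?_
    calc (∞ : ℝ≥0∞) = ∑' _j : ℕ, c ^ N :=
          (ENNReal.tsum_const_eq_top_of_ne_zero (pow_ne_zero _ hc)).symm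
      _ ≤ _ := ENNReal.tsum_le_tsum hlow
  have h1 := measure_limsup_eq_one hm hI hsum
  have h2 : MeasurableSet (limsup (fun j => Ev t A (B j)) atTop) := .measurableSet_limsup hm
  have h3 : ∀ᵐ ω ∂P, ω ∈ limsup (fun j => Ev t A (B j)) atTop := by
    rw [← prob_compl_eq_zero_iff h2] at h1
    exact h1
  filter_upwards [h3] with ω hω
  exact mem_limsup_iff_frequently_mem.mp hω

lemma exists_two (G : Measure ℝ≥0) [IsProbabilityMeasure G] (hG0 : ∀ x, G {x} = 0) :
    ∃ b a : ℝ≥0, b < a ∧ G (Set.Iic b) ≠ 0 ∧ G (Set.Ici a) ≠ 0 := by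
  have hG : G ≠ 0 := IsProbabilityMeasure.ne_zero G
  obtain ⟨x, hx⟩ := G.nonempty_support hG
  have h2 : ∃ y ∈ G.support, y ≠ x := by
    by_contra hcon
    push Not at hcon
    have h3 : G.support ⊆ {x} := fun y hy => hcon y hy
    have h4 : G ({x}ᶜ) = 0 :=
      measure_mono_null (Set.compl_subset_compl.mpr h3) Measure.measure_compl_support
    have h5 : G Set.univ = 0 := by
      rw [← Set.union_compl_self ({x} : Set ℝ≥0)]
      exact measure_union_null (hG0 x) h4
    rw [measure_univ] at h5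
    exact one_ne_zero h5
  obtain ⟨y, hy, hyx⟩ := h2
  have key : ∀ u ∈ G.support, ∀ w ∈ G.support, u < w →
      ∃ b a : ℝ≥0, b < a ∧ G (Set.Iic b) ≠ 0 ∧ G (Set.Ici a) ≠ 0 := by
    intro u hu w hw huw
    obtain ⟨b, hub, hbw⟩ := exists_between huw
    obtain ⟨a, hba, haw⟩ := exists_between hbw
    refine ⟨b, a, hba, ?_, ?_⟩
    · exact ((Measure.mem_support_iff_forall u).mp hu _ (Iic_mem_nhds hub)).ne'
    · exact ((Measure.mem_support_iff_forall w).mp hw _ (Ici_mem_nhds haw)).ne'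
  rcases lt_or_gt_of_ne hyx with h | h
  · exact key y hy x hx h
  · exact key x hx y hy h

end Vale.Agent.P158
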