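import Vale.Agent.H16.FPP.Main

namespace Vale.Agent.P158

open MeasureTheory ProbabilityTheory Filter
open scoped NNReal ENNReal Topology

/-- reflection in the diagonal -/
def sw (u : ℤ × ℤ) : ℤ × ℤ := (u.2, u.1)

/-- reflection of edges -/
def swE (e : Edge) : Edge := (e.2.1, e.1, !e.2.2)

lemma sw_sw (u : ℤ × ℤ) : sw (sw u) = u := rfl

lemma swE_swE (e : Edge) : swE (swE e) = e := by
  obtain ⟨x, y, d⟩ := e
  simp [swE]

lemma joins_sw {e : Edge} {u v : ℤ × ℤ} (h : Joins e u v) : Joins (swE e) (sw u) (sw v) := by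
  obtain ⟨x, y, d⟩ := e
  cases d <;> rcases h with ⟨h1, h2⟩ | ⟨h1, h2⟩ <;> rw [h1, h2] <;>
    simp [Joins, sw, swE, near, far]

lemma path_sw {t : Edge → ℝ≥0} {u v : ℤ × ℤ} {c : ℝ≥0} (p : Path t u v c) :
    Path (fun e => t (swE e)) (sw u) (sw v) c := by
  induction p with
  | nil u => exact Path.nil _
  | cons e u v w c h p ih =>
    have := Path.cons (t := fun e => t (swE e)) (swE e) (sw u) (sw v) (sw w) c (joins_sw h) ih
    simpa [swE_swE] using this

lemma T_sw (t : Edge → ℝ≥0) (u v : ℤ × ℤ) : T (fun e => t (swE e)) (sw u) (sw v) = T t u v := by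
  unfold T
  congr 1
  ext c
  constructor
  · intro h
    have := path_sw (t := fun e => t (swE e)) h
    simpa [swE_swE, sw_sw] using this
  · intro h
    exact path_sw h

lemma ray_sw {t : Edge → ℝ≥0} {v : ℕ → ℤ × ℤ} (hv : IsRay t v) :
    IsRay (fun e => t (swE e)) (fun i => sw (v i)) := by
  obtain ⟨h1, e, h2, h3⟩ := hv
  refine ⟨fun i j hij => h1 ?_, fun i => swE (e i), fun i => joins_sw (h2 i), fun i j hij => ?_⟩
  · have := congrArg sw hij
    simpa [sw_sw] using this
  · simp only [swE_swE]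
    rw [h3 i j hij, T_sw]

lemma ray_tail {t : Edge → ℝ≥0} {v : ℕ → ℤ × ℤ} (hv : IsRay t v) (N : ℕ) :
    IsRay t (fun i => v (N + i)) := by
  obtain ⟨h1, e, h2, h3⟩ := hv
  refine ⟨fun i j hij => by have := h1 hij; omega, fun i => e (N + i), fun i => h2 (N + i),
    fun i j hij => ?_⟩
  rw [← h3 (N + i) (N + j) (by omega), add_comm N i, add_comm N j]
  exact Finset.sum_Ico_add (fun k => t (e k)) i j N

lemma Path.symm' {t : Edge → ℝ≥0} {u v : ℤ × ℤ} {c : ℝ≥0} (p : Path t u v c) : Path t v u c := by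
  induction p with
  | nil u => exact Path.nil _
  | cons e u v w c h p ih =>
    rw [add_comm]
    exact ih.trans' (Path.edge h.symm')

lemma T_symm (t : Edge → ℝ≥0) (u v : ℤ × ℤ) : T t u v = T t v u := by
  unfold T
  congr 1
  ext c
  exact ⟨fun h => Path.symm' h, fun h => Path.symm' h⟩

lemma ray_of_bi {t : Edge → ℝ≥0} {v : ℤ → ℤ × ℤ} (hv : IsBigeodesic t v) (N : ℤ) :
    IsRay t (fun i : ℕ => v (N + i)) := by
  obtain ⟨h1, e, h2, h3⟩ := hv
  refine ⟨fun i j hij => by have := h1 hij; omega, fun i => e (N + i), fun i => ?_,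
    fun i j hij => ?_⟩
  · have := h2 (N + i)
    rw [add_assoc] at this
    exact_mod_cast this
  · rw [← h3 (N + i) (N + j) (by omega)]
    refine Finset.sum_nbij (fun k : ℕ => N + (k : ℤ)) ?_ ?_ ?_ ?_
    · intro k hk
      rw [Finset.mem_Ico] at hk ⊢
      omega
    · intro a _ b _ hab
      simp only at hab
      omega
    · intro k hk
      rw [Finset.coe_Ico, Set.mem_Ico] at hk
      refine ⟨(k - N).toNat, ?_, ?_⟩
      · rw [Finset.coe_Ico, Set.mem_Ico]
        omega
      · simp only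
        omega
    · intro k _
      rfl

lemma ray_of_bi' {t : Edge → ℝ≥0} {v : ℤ → ℤ × ℤ} (hv : IsBigeodesic t v) (N : ℤ) :
    IsRay t (fun i : ℕ => v (N - i)) := by
  obtain ⟨h1, e, h2, h3⟩ := hv
  refine ⟨fun i j hij => by have := h1 hij; omega, fun i => e (N - i - 1), fun i => ?_,
    fun i j hij => ?_⟩
  · have := (h2 (N - i - 1)).symm'
    rw [sub_add_cancel] at this
    convert this using 2
    push_cast
    ring
  · rw [T_symm, ← h3 (N - j) (N - i) (by omega)]
    refine Finset.sum_nbij (fun k : ℕ => N - (k : ℤ) - 1) ?_ ?_ ?_ ?_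
    · intro k hk
      rw [Finset.mem_Ico] at hk ⊢
      omega
    · intro a _ b _ hab
      simp only at hab
      omega
    · intro k hk
      rw [Finset.coe_Ico, Set.mem_Ico] at hk
      refine ⟨(N - k - 1).toNat, ?_, ?_⟩
      · rw [Finset.coe_Ico, Set.mem_Ico]
        omega
      · simp only
        omega
    · intro k _
      rfl

theorem unbounded {Ω : Type*} [MeasurableSpace Ω] (P : Measure Ω) [IsProbabilityMeasure P]
    (G : Measure ℝ≥0) (hG : ∀ x, G {x} = 0) (t : Edge → Ω → ℝ≥0) (ht : ∀ e, Measurable (t e))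
    (hlaw : ∀ e, P.map (t e) = G) (hind : iIndepFun t P) :
    ∀ᵐ ω ∂P, ∀ v : ℕ → ℤ × ℤ, IsRay (fun e => t e ω) v → ∀ K : ℕ,
      (∃ i, (K : ℤ) < |(v i).1|) ∧ (∃ i, (K : ℤ) < |(v i).2|) := by
  have hGp : IsProbabilityMeasure G := by
    rw [← hlaw (0, 0, true)]
    exact Measure.isProbabilityMeasure_map (ht _).aemeasurable
  have hinj : Function.Injective swE := fun a b hab => by
    rw [← swE_swE a, hab, swE_swE]
  have h1 := strips (P := P) (G := G) (t := t) ht hlaw hind hG
  have h2 := strips (P := P) (G := G) (t := fun e => t (swE e)) (fun e => ht _) (fun e => hlaw _)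
    (hind.precomp hinj) hG
  filter_upwards [h1, h2] with ω hω₁ hω₂ v hv K
  constructor
  · by_contra hcon
    push Not at hcon
    exact hω₂ K (fun i => sw (v i)) (ray_sw hv) hcon
  · by_contra hcon
    push Not at hcon
    exact hω₁ K v hv hcon

end Vale.Agent.P158
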